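import Vale.Agent.P092.H720.ThC

/-!
P092 (helper978), [CLASS-V]: faithfulness of the action of a group whose non-trivial normal subgroups
are open and not compact.
-/

set_option linter.all false

open scoped InnerProductSpace Topology ENNReal NNReal
open Filter ContinuousLinearMap MeasureTheory

namespace Vale.Agent.P092.VR.H978

open Vale.Agent.P092.H242.ThC

section meas

variable {H : Type} [Group H] [TopologicalSpace H] [IsTopologicalGroup H] [LocallyCompactSpace H]
  [SecondCountableTopology H] [MeasurableSpace H] [BorelSpace H] (μ : Measure H)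
  [μ.IsHaarMeasure]

/-- An open subgroup which is not compact has infinite Haar measure. -/
theorem measure_open {K : Subgroup H} (ho : IsOpen (K : Set H)) (hc : ¬ IsCompact (K : Set H)) :
    μ (K : Set H) = ∞ := by
  have he : Topology.IsOpenEmbedding (K.subtype : K → H) := ho.isOpenEmbedding_subtypeVal
  haveI h1 : (μ.comap (K.subtype : K →* H)).IsHaarMeasure :=
    Measure.IsHaarMeasure.comap (mH := inferInstance) μ he
  haveI h2 : LocallyCompactSpace K := he.locallyCompactSpace
  haveI h3 : NoncompactSpace K := by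
    rw [← not_compactSpace_iff]
    intro h
    exact hc (isCompact_iff_compactSpace.2 h)
  have h4 := measure_univ_of_isMulLeftInvariant (μ.comap (K.subtype : K →* H))
  rw [he.measurableEmbedding.comap_apply, Set.image_univ] at h4
  have h5 : Set.range (K.subtype : K → H) = (K : Set H) := Subtype.range_coe
  rwa [h5] at h4

/-- An integrable function which is constant on the cosets of such a subgroup vanishes. -/
theorem zero_of_inv {K : Subgroup H} (ho : IsOpen (K : Set H)) (hc : ¬ IsCompact (K : Set H))
    {f : H → ℝ} (hf : Integrable f μ) (hK : ∀ h, ∀ k ∈ K, f (h * k) = f h) (h : H) : f h = 0 := by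
  obtain ⟨S, hS⟩ : ∃ S : Set H, S = (fun x => h⁻¹ * x) ⁻¹' (K : Set H) := ⟨_, rfl⟩
  have hSo : IsOpen S := by rw [hS]; exact ho.preimage (continuous_const_mul _)
  have h1 : IntegrableOn f S μ := hf.integrableOn
  have h2 : IntegrableOn (fun _ : H => f h) S μ := by
    refine h1.congr_fun (fun x hx => ?_) hSo.measurableSet
    rw [hS] at hx
    have h3 := hK h (h⁻¹ * x) hx
    rwa [mul_inv_cancel_left] at h3
  have h4 : μ S = ∞ := by
    rw [hS, measure_preimage_mul]
    exact measure_open μ ho hc
  rcases (integrableOn_const_iff (by simp)).1 h2 with h5 | h5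
  · simpa using h5
  · rw [h4] at h5
    exact absurd h5 (lt_irrefl _)

end meas

section abs

variable {A L : Type*} [NonUnitalRing A] [StarRing A] [Module ℂ A] [SMulCommClass ℂ A A]
  [IsScalarTower ℂ A A]
  [NormedAddCommGroup L] [InnerProductSpace ℂ L] [CompleteSpace L] {j : A →ₗ[ℂ] L}

variable {H : Type} [Group H] [TopologicalSpace H] [IsTopologicalGroup H]
  [LocallyCompactSpace H] [T2Space H] [SecondCountableTopology H]
  [MeasurableSpace H] [BorelSpace H] {Y : Type*} [Group Y] [TopologicalSpace Y]
  [IsTopologicalGroup Y] [MeasurableSpace Y] [BorelSpace Y] [SecondCountableTopology Y]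
  {α : H → A → A} {U : H →* (L →L[ℂ] L)} {μ : Measure H} [μ.IsHaarMeasure]
  {r : Y → A → A} {R : Y →* (L →L[ℂ] L)} {ν : Measure Y}

/-- The action is faithful. -/
theorem faith_big (hbig : ∀ N : Subgroup H, N.Normal → N ≠ ⊥ →
      IsOpen (N : Set H) ∧ ¬ IsCompact (N : Set H))
    (P : Pk j α U μ r R ν) (hne : ∃ a, j a ≠ 0) :
    ∀ h : H, (∀ a, j (α h a) = j a) → h = 1 := by
  have hker : ∀ h : H, (∀ a, j (α h a) = j a) ↔ h ∈ U.ker := by
    intro h
    rw [MonoidHom.mem_ker]
    constructor
    · intro h1
      refine ContinuousLinearMap.coeFn_injective ?_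
      refine P.ha.dense.equalizer (U h).continuous (1 : L →L[ℂ] L).continuous ?_
      funext a
      simp only [Function.comp_apply, ContinuousLinearMap.one_apply, P.actH.coe, h1]
    · intro h1 a
      rw [← P.actH.coe, h1, ContinuousLinearMap.one_apply]
  intro h hh
  by_cases h1 : U.ker = ⊥
  · have h2 := (hker h).1 hh
    rw [h1, Subgroup.mem_bot] at h2
    exact h2
  · exfalso
    obtain ⟨ho, hc⟩ := hbig U.ker (MonoidHom.normal_ker U) h1
    obtain ⟨a, ha⟩ := hne
    refine ha (eq_zero_of_orth P.ha P.actH P.itgH fun b x => ?_)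
    have h2 : ∀ s, ∀ t ∈ U.ker, j (α (s * t) b * x) = j (α s b * x) := by
      intro s t ht
      have h3 : j (α (s * t) b) = j (α s b) := by
        rw [← P.actH.coe, ← P.actH.coe, map_mul, (MonoidHom.mem_ker).1 ht, mul_one]
      obtain ⟨C, _, hC⟩ := P.ha.bddR x
      have h4 : ‖j ((α (s * t) b - α s b) * x)‖ ≤ 0 := by
        refine (hC _).trans (le_of_eq ?_)
        rw [map_sub, h3, sub_self, norm_zero, mul_zero]
      have h5 := norm_le_zero_iff.1 h4
      rw [sub_mul, map_sub, sub_eq_zero] at h5
      exact h5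
    have h3 := P.itgH.int b x
    have h4 := zero_of_inv μ ho hc h3 (fun s t ht => by rw [h2 s t ht]) 1
    have h6 : j (α 1 b * x) = j (b * x) := by
      have h7 : j (α 1 b) = j b := by
        rw [← P.actH.coe, map_one, ContinuousLinearMap.one_apply]
      obtain ⟨C, _, hC⟩ := P.ha.bddR x
      have h8 : ‖j ((α 1 b - b) * x)‖ ≤ 0 := by
        refine (hC _).trans (le_of_eq ?_)
        rw [map_sub, h7, sub_self, norm_zero, mul_zero]
      have h9 := norm_le_zero_iff.1 h8
      rw [sub_mul, map_sub, sub_eq_zero] at h9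
      exact h9
    rw [h6, sq_eq_zero_iff, norm_eq_zero] at h4
    rw [h4, inner_zero_left]

end abs

end Vale.Agent.P092.VR.H978
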