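import Vale.Agent.P092.QT.H978.C2c
import Vale.Agent.P092.VR.H978.Faith
import Vale.Agent.P092.VR.QDefs

/-!
P092 (helper978), project VR, block [V-C2]: Theorem C, pair version, for places with `FacV`:
**`c2V : VR.Q.C2Stmt`**.
-/

set_option linter.all false

open MeasureTheory Filter Topology ContinuousLinearMap
open scoped InnerProductSpace ENNReal NNReal ZeroAtInfty

namespace Vale.Agent.P092.VR.H978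

open Vale.Agent.P092.H978 Vale.Agent.P092.QT.H978

open Vale.Agent.P092.H160
open Vale.Agent.P092.QT.H156.Sm
open Vale.Agent.P092.QT.H650
open Vale.Agent.P092.QT.H715.Q
open Vale.Agent.P092.QT.H720 Vale.Agent.P092.H720
open Vale.Agent.P092.H242.ThC
open Vale.Agent.P092.VR (FacV)

section asm

variable {Γ X Y₁ Y₂ K G₁ G₂ H : Type} [Group Γ] [Countable Γ] [Group X] [Countable X] [Group Y₁]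
    [Countable Y₁] [Group Y₂] [Countable Y₂]
    [NormedAddCommGroup K] [InnerProductSpace ℂ K] [CompleteSpace K]
    [Group G₁] [TopologicalSpace G₁] [IsTopologicalGroup G₁] [LocallyCompactSpace G₁]
    [SecondCountableTopology G₁] [T2Space G₁] [MeasurableSpace G₁] [BorelSpace G₁]
    [Group G₂] [TopologicalSpace G₂] [IsTopologicalGroup G₂] [LocallyCompactSpace G₂]
    [SecondCountableTopology G₂] [T2Space G₂] [MeasurableSpace G₂] [BorelSpace G₂]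
    [Group H] [TopologicalSpace H] [IsTopologicalGroup H] [LocallyCompactSpace H]
    [SecondCountableTopology H] [T2Space H] [MeasurableSpace H] [BorelSpace H]
    {V R₁ R₂ : Γ →* (K →L[ℂ] K)} {f₁ f₂ : X →* Γ} {ρ : X →* (K →L[ℂ] K)} {f₁' : Y₁ →* Γ}
    {ρ₁' : Y₁ →* (K →L[ℂ] K)} {f₂' : Y₂ →* Γ} {ρ₂' : Y₂ →* (K →L[ℂ] K)} {ω ω₁' ω₂' : K}
    {p₁ : Γ →* G₁} {p₂ : Γ →* G₂} {κ : Γ →* H}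
    {μ₁ : Measure G₁} [μ₁.IsHaarMeasure] [μ₁.IsMulRightInvariant]
    {μ₂ : Measure G₂} [μ₂.IsHaarMeasure] [μ₂.IsMulRightInvariant]
    {ν : Measure H} [ν.IsHaarMeasure] [ν.IsMulRightInvariant]

variable {D₁ : Dbl V R₁ f₁ ρ f₁' ρ₁' ω ω₁'} {D₂ : Dbl V R₂ f₂ ρ f₂' ρ₂' ω ω₂'} {hκ : DenseRange κ}

/-- **Theorem C, pair version, from the two operators** -/
theorem c2_ofV (hp₁ : DenseRange p₁) (hp₂ : DenseRange p₂) (hH : FacV H)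
    (h1 : F1 (p₁.comp f₁) κ ρ V ω μ₁) (h1' : F1 (κ.comp f₁') p₁ ρ₁' R₁ ω₁' ν)
    (h2 : F1 (p₂.comp f₂) κ ρ V ω μ₂) (h2' : F1 (κ.comp f₂') p₂ ρ₂' R₂ ω₂' ν)
    (hne₁ : ∃ a, TwS V f₁ ρ ω ω₁' p₁ κ μ₁ ν a ∧ a ≠ 0) (hne₂ : ∃ b, TwS V f₂ ρ ω ω₂' p₂ κ μ₂ ν b ∧ b ≠ 0)
    {Θ₁ : TA D₁ hκ p₁ μ₁ ν → TA D₁ hκ p₁ μ₁ ν → (LL D₂ hκ p₂ μ₂ ν →L[ℂ] LL D₂ hκ p₂ μ₂ ν)}
    (hΘ₁ : ThF (jj D₁ hκ p₁ μ₁ ν) (rT D₁ hκ hp₁ μ₁ ν) μ₁ Θ₁) (hf₁ : FrmTh D₁ D₂ hκ Θ₁)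
    {Θ₂ : TA D₂ hκ p₂ μ₂ ν → TA D₂ hκ p₂ μ₂ ν → (LL D₁ hκ p₁ μ₁ ν →L[ℂ] LL D₁ hκ p₁ μ₁ ν)}
    (hΘ₂ : ThF (jj D₂ hκ p₂ μ₂ ν) (rT D₂ hκ hp₂ μ₂ ν) μ₂ Θ₂) (hf₂ : FrmTh D₂ D₁ hκ Θ₂)
    {a : G₁ → K →L[ℂ] K} {b : G₂ → K →L[ℂ] K} (ha : TwS V f₁ ρ ω ω₁' p₁ κ μ₁ ν a)
    (hb : TwS V f₂ ρ ω ω₂' p₂ κ μ₂ ν b) (x : G₁) (y : G₂) : a x * b y = b y * a x := by
  haveI : μ₁.IsInvInvariant := Vale.Agent.P092.QT.H448.Gal.invInv_of_right μ₁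
  haveI : μ₂.IsInvInvariant := Vale.Agent.P092.QT.H448.Gal.invInv_of_right μ₂
  haveI : ν.IsInvInvariant := Vale.Agent.P092.QT.H448.Gal.invInv_of_right ν
  obtain ⟨c₁, U₁, S₁, hc₁, P₁⟩ := exists_pk D₁ hκ hp₁ μ₁ ν h1 h1'
  obtain ⟨c₂, U₂, S₂, hc₂, P₂⟩ := exists_pk D₂ hκ hp₂ μ₂ ν h2 h2'
  haveI : (c₁ • ν).IsHaarMeasure := Measure.IsHaarMeasure.nnreal_smul ν hc₁
  haveI : (c₂ • ν).IsHaarMeasure := Measure.IsHaarMeasure.nnreal_smul ν hc₂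
  obtain ⟨a₀, ha₀, ha₀'⟩ := hne₁
  obtain ⟨b₀, hb₀, hb₀'⟩ := hne₂
  -- the algebras are not zero
  have hj₁ : ∃ a, jj D₁ hκ p₁ μ₁ ν a ≠ 0 := by
    refine ⟨⟨a₀, ha₀⟩, fun h => nsq_ne_zero (μ := μ₁) D₁.fr.reg ha₀.smo.toFd ha₀' ?_⟩
    have h4 : ‖jj D₁ hκ p₁ μ₁ ν ⟨a₀, ha₀⟩‖ ^ 2 = (nsq ω μ₁ a₀).toReal :=
      Vale.Agent.P092.QT.H156.Sm.norm_toLp_sq ha₀.smo.l2
    rw [h, norm_zero, zero_pow two_ne_zero] at h4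
    exact ((ENNReal.toReal_eq_zero_iff _).1 h4.symm).resolve_right (nsq_lt_top ha₀.smo.l2).ne
  have hj₂ : ∃ a, jj D₂ hκ p₂ μ₂ ν a ≠ 0 := by
    refine ⟨⟨b₀, hb₀⟩, fun h => nsq_ne_zero (μ := μ₂) D₂.fr.reg hb₀.smo.toFd hb₀' ?_⟩
    have h4 : ‖jj D₂ hκ p₂ μ₂ ν ⟨b₀, hb₀⟩‖ ^ 2 = (nsq ω μ₂ b₀).toReal :=
      Vale.Agent.P092.QT.H156.Sm.norm_toLp_sq hb₀.smo.l2
    rw [h, norm_zero, zero_pow two_ne_zero] at h4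
    exact ((ENNReal.toReal_eq_zero_iff _).1 h4.symm).resolve_right (nsq_lt_top hb₀.smo.l2).ne
  have k₁ := faith_big hH.big P₁ hj₁
  have k₂ := faith_big hH.big P₂ hj₂
  have v₁ := Vale.Agent.P092.H565.coef_van P₁.ha P₁.actH P₁.itgH
  have v₂ := Vale.Agent.P092.H565.coef_van P₂.ha P₂.actH P₂.itgH
  have hS : ∀ (b c : TA D₁ hκ p₁ μ₁ ν) (x z : TA D₂ hκ p₂ μ₂ ν),
      ⟪jj D₂ hκ p₂ μ₂ ν z, Θ₁ b c (jj D₂ hκ p₂ μ₂ ν x)⟫_ℂ =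
        ⟪jj D₁ hκ p₁ μ₁ ν c, Θ₂ (star z) (star x) (jj D₁ hκ p₁ μ₁ ν b)⟫_ℂ :=
    exch_all' P₂.ha P₂.actH P₂.itgH hΘ₂ (exch_form h1 h2 hf₁ hf₂)
  have hne : ∃ b c, Θ₁ b c ≠ 0 := by
    by_contra hcon
    push Not at hcon
    refine form_ne (μ₁ := μ₁) (μ₂ := μ₂) D₁.fr h1 h2 ha₀.smo ha₀' hb₀.smo hb₀' fun v => ?_
    have h5 := hf₁ ⟨a₀, ha₀⟩ ⟨a₀, ha₀⟩ (star ⟨b₀, hb₀⟩ * ⟨b₀, hb₀⟩)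
      (rT D₂ hκ hp₂ μ₂ ν v ⟨b₀, hb₀⟩ * star (rT D₂ hκ hp₂ μ₂ ν v ⟨b₀, hb₀⟩))
    rw [hcon, zero_apply, inner_zero_right] at h5
    exact h5.symm
  have key := pair_theta P₁ P₂ v₁ v₂ (Vale.Agent.P092.H565.dense_ph P₁ v₁ hj₁ k₁)
    (Vale.Agent.P092.H565.dense_ph P₂ v₂ hj₂ k₂) hΘ₁ hΘ₂ P₁.ha.dense P₂.ha.dense
    (sup_form hp₁ h1 h1' hf₁ P₁ k₁) (sup_form hp₂ h2 h2' hf₂ P₂ k₂) hS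
    (cov_all P₁.actH P₂.actH hΘ₁ hκ (cov_form hp₂ h1 h2 hf₁ P₂.actH))
    (cov_all P₂.actH P₁.actH hΘ₂ hκ (cov_form hp₁ h2 h1 hf₂ P₁.actH))
    (fun S T _ _ hS hT hc => hH.pair S T hS hT hc) hne
  refine (comm_of_form (μ₁ := μ₁) (μ₂ := μ₂) D₁.fr h1 h2 ha.smo hb.smo ?_ y x).symm
  have h6 := hf₁ ⟨a, ha⟩ ⟨a, ha⟩ ⟨b, hb⟩ ⟨b, hb⟩
  rw [key, smul_apply, inner_smul_right, one_apply_eq_self, inner_jj, inner_jj] at h6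
  exact h6.symm

end asm

/-- **[V-C2]** -/
theorem c2V : Vale.Agent.P092.VR.Q.C2Stmt := by
  intro Γ X Y₁ Y₂ K G₁ G₂ H _ _ _ _ _ _ _ _ _ _ _ _ _ _ _ _ _ _ _ _ _ _ _ _ _ _ _ _ _ _ _ _ _ _ _
    V R₁ R₂ f₁ f₂ ρ f₁' ρ₁' f₂' ρ₂' ω ω₁' ω₂' p₁ p₂ κ μ₁ _ _ μ₂ _ _ ν _ _ D₁ D₂ hR hρ hp₁ hp₂ hκ hG₁ hG₂ hH
    h1 h1' h2 h2' hne₁ hne₂ a b ha hb x y
  obtain ⟨Θ₁, hΘ₁, hf₁⟩ := exists_theta (D₁ := D₁) (D₂ := D₂) (hκ := hκ) hp₁ hp₂ h1 h1' h2 hne₂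
  obtain ⟨Θ₂, hΘ₂, hf₂⟩ := exists_theta (D₁ := D₂) (D₂ := D₁) (hκ := hκ) hp₂ hp₁ h2 h2' h1 hne₁
  exact c2_ofV hp₁ hp₂ hH h1 h1' h2 h2' hne₁ hne₂ hΘ₁ hf₁ hΘ₂ hf₂ ha hb x y

end Vale.Agent.P092.VR.H978
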