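import Vale.Agent.P092.VR.Lat
import Vale.Agent.P092.H515.LatSl
import Vale.Agent.P092.H971.Ricc

/-!
P092 (helper978), project VR, block [V-GRP]: a finite subset which is normalised by the image of (the
part in an open subgroup of) a lattice is trivial, for groups whose only finite measures invariant
under conjugation are carried by `1`; relative ICC.
-/

set_option linter.all false

open MeasureTheory MeasureTheory.Measure Filter Topology Set

namespace Vale.Agent.P092.VR.H978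

open Vale.Agent.P092.H515 (IsLattice)

/-- finite measures invariant under conjugation are carried by `1` -/
def Nul (G : Type) [Group G] [TopologicalSpace G] : Prop :=
  ∀ [MeasurableSpace G] [BorelSpace G] (ν : Measure G) [IsFiniteMeasure ν],
    (∀ g, ν.map (fun x => g * x * g⁻¹) = ν) → ν {1}ᶜ = 0

section fi

variable {E₁ : Type} [Group E₁] [TopologicalSpace E₁] [IsTopologicalGroup E₁]
  [LocallyCompactSpace E₁] [SecondCountableTopology E₁] [T2Space E₁]

/-- Subgroups of finite index of lattices (helper305). -/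
theorem isLattice_fi {Λ Δ : Subgroup E₁} (h : H515.IsLattice Λ) (hΔ : Δ ≤ Λ)
    (hfi : (Δ.subgroupOf Λ).FiniteIndex) : H515.IsLattice Δ := by
  borelize E₁
  obtain ⟨μ, hμ⟩ : ∃ μ : Measure E₁, μ = haar := ⟨_, rfl⟩
  haveI : μ.IsHaarMeasure := by rw [hμ]; infer_instance
  haveI := H515.IsLattice.rightInv μ h
  haveI := h.disc
  obtain ⟨F, -, hF, -, hc, -⟩ := H515.IsLattice.exists_fdom_right μ h
  haveI : DiscreteTopology Δ := by
    refine DiscreteTopology.of_continuous_injective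
      (f := fun x : Δ => (⟨x.1, hΔ x.2⟩ : Λ)) (continuous_subtype_val.subtype_mk _) ?_
    intro x y hxy
    exact Subtype.ext (congrArg (fun z : Λ => (z : E₁)) hxy)
  haveI : Finite (Λ ⧸ Δ.subgroupOf Λ) := Subgroup.finite_quotient_of_finiteIndex
  haveI := Fintype.ofFinite (Λ ⧸ Δ.subgroupOf Λ)
  let s : Λ ⧸ Δ.subgroupOf Λ → Λ := fun q => q.out
  refine H515.isLattice_of_cover Δ μ
    (F := ⋃ q : Λ ⧸ Δ.subgroupOf Λ, (fun x => x * ((s q)⁻¹ : Λ).1) ⁻¹' F) ?_ fun x => ?_
  · refine (measure_iUnion_le _).trans_lt ?_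
    rw [tsum_fintype]
    refine ENNReal.sum_lt_top.2 fun q _ => ?_
    rw [measure_preimage_mul_right]
    exact hF
  · obtain ⟨v, hv, -⟩ := hc x
    have h1 : (QuotientGroup.mk (s (QuotientGroup.mk v⁻¹)) : Λ ⧸ Δ.subgroupOf Λ) =
        QuotientGroup.mk v⁻¹ := Quotient.out_eq' _
    have h2 : (s (QuotientGroup.mk v⁻¹))⁻¹ * v⁻¹ ∈ Δ.subgroupOf Λ := QuotientGroup.eq.1 h1
    refine ⟨⟨_, Δ.inv_mem (Subgroup.mem_subgroupOf.1 h2)⟩, mem_iUnion.2 ⟨QuotientGroup.mk v⁻¹, ?_⟩⟩
    have h3 : x * (((s (QuotientGroup.mk v⁻¹))⁻¹ * v⁻¹ : Λ) : E₁)⁻¹ *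
        ((s (QuotientGroup.mk v⁻¹))⁻¹ : Λ).1 = x * v := by
      push_cast
      group
    show x * (((s (QuotientGroup.mk v⁻¹))⁻¹ * v⁻¹ : Λ) : E₁)⁻¹ *
        ((s (QuotientGroup.mk v⁻¹))⁻¹ : Λ).1 ∈ F
    rw [h3]
    exact hv

end fi

section perm

variable {E G : Type} [Group E] [Group G]

/-- A subgroup acting on a finite set by conjugation: the pointwise stabiliser has finite index. -/
theorem stab_fi (c : E →* G) (Λ : Subgroup E) (S : Set G) (hSf : S.Finite)
    (hS : ∀ v ∈ Λ, ∀ s ∈ S, c v * s * (c v)⁻¹ ∈ S) :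
    ((Λ ⊓ (Subgroup.centralizer S).comap c).subgroupOf Λ).FiniteIndex := by
  classical
  haveI : Finite S := hSf
  let f : Λ →* Equiv.Perm S := {
    toFun := fun v => {
      toFun := fun s => ⟨c v * s * (c v)⁻¹, hS v v.2 s s.2⟩
      invFun := fun s => ⟨(c v)⁻¹ * s * c v, by
        have h1 := hS (v : E)⁻¹ (Λ.inv_mem v.2) s s.2
        rwa [map_inv, inv_inv] at h1⟩
      left_inv := fun s => by
        refine Subtype.ext ?_
        show (c v)⁻¹ * (c v * s * (c v)⁻¹) * c v = s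
        group
      right_inv := fun s => by
        refine Subtype.ext ?_
        show c v * ((c v)⁻¹ * s * c v) * (c v)⁻¹ = s
        group }
    map_one' := by
      ext s
      show c ((1 : Λ) : E) * (s : G) * (c ((1 : Λ) : E))⁻¹ = s
      rw [Subgroup.coe_one, map_one]
      simp
    map_mul' := by
      intro v w
      ext s
      show c ((v * w : Λ) : E) * (s : G) * (c ((v * w : Λ) : E))⁻¹ =
        c v * (c w * s * (c w)⁻¹) * (c v)⁻¹
      rw [Subgroup.coe_mul, map_mul]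
      group }
  have h1 : f.ker ≤ (Λ ⊓ (Subgroup.centralizer S).comap c).subgroupOf Λ := by
    intro v hv
    rw [Subgroup.mem_subgroupOf]
    refine ⟨v.2, ?_⟩
    show c v ∈ Subgroup.centralizer S
    rw [Subgroup.mem_centralizer_iff]
    intro s hs
    have h2 : f v = 1 := hv
    have h3 : ((f v) ⟨s, hs⟩ : G) = s := by rw [h2]; rfl
    have h4 : c v * s * (c v)⁻¹ = s := h3
    rw [mul_inv_eq_iff_eq_mul] at h4
    exact h4.symm
  haveI : f.ker.FiniteIndex := Subgroup.finiteIndex_ker f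
  exact Subgroup.finiteIndex_of_le h1

end perm

section fin

variable {E G : Type} [Group E] [TopologicalSpace E] [IsTopologicalGroup E]
  [LocallyCompactSpace E] [SecondCountableTopology E] [T2Space E] [Group G] [TopologicalSpace G]
  [IsTopologicalGroup G] [SecondCountableTopology G] [T2Space G]

/-- An element centralised by the image of a lattice is trivial. -/
theorem eq_one_of_cent {Θ : Subgroup E} (hΘ : IsLattice Θ) (hG : Nul G) (c : E →* G)
    (hc : Continuous c) (hcs : Function.Surjective c) (s : G) (hs : ∀ v ∈ Θ, c v * s = s * c v) :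
    s = 1 := by
  by_contra hne
  obtain ⟨ν, h0, hfin, hinv⟩ := hΘ.covol
  letI : MeasurableSpace (E ⧸ Θ) := borel _
  haveI : BorelSpace (E ⧸ Θ) := ⟨rfl⟩
  borelize G
  haveI : IsFiniteMeasure ν := ⟨hfin⟩
  let F : E ⧸ Θ → G := Quotient.lift (fun x : E => c x * s * (c x)⁻¹) (by
    intro a b h
    have h1 : a⁻¹ * b ∈ Θ := by rwa [← QuotientGroup.leftRel_apply]
    have h2 := hs _ h1
    rw [map_mul, map_inv] at h2
    have h3 : c b * s = c a * (((c a)⁻¹ * c b) * s) := by group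
    show c a * s * (c a)⁻¹ = c b * s * (c b)⁻¹
    rw [h3, h2]
    group)
  have hFmk : ∀ x : E, F (x : E ⧸ Θ) = c x * s * (c x)⁻¹ := fun x => rfl
  have hF : Continuous F := continuous_quot_lift _ (by fun_prop)
  have h1 := hG (ν.map F) fun g => by
    obtain ⟨y, rfl⟩ := hcs g
    have hm : Measurable fun x : G => c y * x * (c y)⁻¹ :=
      (by fun_prop : Continuous fun x : G => c y * x * (c y)⁻¹).measurable
    have hm2 : Measurable fun x : E ⧸ Θ => y • x := (continuous_const_smul y).measurable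
    rw [Measure.map_map hm hF.measurable]
    have e : (fun x : G => c y * x * (c y)⁻¹) ∘ F = F ∘ fun x : E ⧸ Θ => y • x := by
      funext q
      obtain ⟨x, rfl⟩ := QuotientGroup.mk_surjective q
      show c y * (c x * s * (c x)⁻¹) * (c y)⁻¹ = c (y * x) * s * (c (y * x))⁻¹
      rw [map_mul]
      group
    have e2 : ν.map (fun x : E ⧸ Θ => y • x) = ν := by
      ext A hA
      rw [Measure.map_apply hm2 hA]
      exact hinv y A hA
    rw [e, ← Measure.map_map hF.measurable hm2, e2]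
  rw [Measure.map_apply hF.measurable (measurableSet_singleton _).compl] at h1
  have h2 : F ⁻¹' {1}ᶜ = univ := by
    rw [eq_univ_iff_forall]
    intro q
    obtain ⟨x, rfl⟩ := QuotientGroup.mk_surjective q
    show F (x : E ⧸ Θ) ≠ 1
    rw [hFmk]
    intro h3
    apply hne
    have h4 : s = (c x)⁻¹ * (c x * s * (c x)⁻¹) * c x := by group
    rw [h4, h3]
    group
  rw [h2] at h1
  exact h0 (Measure.measure_univ_eq_zero.1 h1)

/-- A finite set normalised by the image of the part of a lattice in an open subgroup is trivial. -/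
theorem finite_normalised {Λ : Subgroup E} (hΛ : IsLattice Λ) (hG : Nul G) (c : E →* G)
    (hc : Continuous c) (O : Subgroup E) (hO : IsOpen (O : Set E)) (hcs : ∀ g, ∃ x ∈ O, c x = g)
    (S : Set G) (hSf : S.Finite) (hS : ∀ v ∈ Λ, v ∈ O → ∀ s ∈ S, c v * s * (c v)⁻¹ ∈ S) :
    ∀ s ∈ S, s = 1 := by
  haveI : LocallyCompactSpace O := hO.locallyCompactSpace
  haveI : SecondCountableTopology O :=
    inferInstanceAs (SecondCountableTopology ((O : Set E) : Type))
  have h1 : IsLattice (Λ.comap O.subtype) :=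
    lat_comap O.subtype O.subtype_injective continuous_subtype_val hO.isOpenMap_subtype_val Λ hΛ
  have h2 := isLattice_fi h1 (Δ := Λ.comap O.subtype ⊓ (Subgroup.centralizer S).comap
    (c.comp O.subtype)) inf_le_left (stab_fi (c.comp O.subtype) _ S hSf fun v hv s hs =>
      hS v hv v.2 s hs)
  intro s hs
  refine eq_one_of_cent h2 hG (c.comp O.subtype) (hc.comp continuous_subtype_val) (fun g => ?_) s ?_
  · obtain ⟨x, hx, h3⟩ := hcs g
    exact ⟨⟨x, hx⟩, h3⟩
  · intro v hv
    have h3 := (Subgroup.mem_centralizer_iff.1 hv.2) s hs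
    exact h3.symm

end fin

section ricc

variable {I : Type} [Finite I] {G : I → Type} [∀ i, Group (G i)] [∀ i, TopologicalSpace (G i)]
  [∀ i, IsTopologicalGroup (G i)] [∀ i, LocallyCompactSpace (G i)] [∀ i, T2Space (G i)]
  [∀ i, SecondCountableTopology (G i)] {Γ : Type} [Group Γ]

/-- **Relative ICC** for lattices of `∏ G i` whose projection to the factor `G i` is dense. -/
theorem ricc (q : ∀ i, Γ →* G i) (hinj : ∀ g, (∀ i, q i g = 1) → g = 1)
    (hlat : IsLattice (MonoidHom.pi q).range) (hrec : ∀ i, Nul (G i)) (i : I)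
    (hcent : ∀ g : G i, g ≠ 1 → ¬ IsOpen ((Subgroup.centralizer {g} : Subgroup (G i)) : Set (G i)))
    (hd : DenseRange (q i)) {U : Set (G i)} (hU : U ∈ 𝓝 (1 : G i)) {h : Γ} (hh : h ≠ 1) :
    {y : Γ | ∃ θ : Γ, q i θ ∈ U ∧ y = θ * h * θ⁻¹}.Infinite := by
  classical
  intro hfin
  apply hh
  -- choose the neighbourhood with the smallest orbit
  let orb : Set (G i) → Set Γ := fun V => {y : Γ | ∃ θ : Γ, q i θ ∈ V ∧ y = θ * h * θ⁻¹}
  have hmono : ∀ {V W : Set (G i)}, V ⊆ W → orb V ⊆ orb W := by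
    rintro V W hVW y ⟨θ, h1, h2⟩
    exact ⟨θ, hVW h1, h2⟩
  have hex : ∃ m : ℕ, ∃ V ∈ 𝓝 (1 : G i), V ⊆ U ∧ (orb V).ncard = m := ⟨_, U, hU, subset_rfl, rfl⟩
  obtain ⟨V₀, hV₀, hV₀U, hcard⟩ := Nat.find_spec hex
  have hmin : ∀ V ∈ 𝓝 (1 : G i), V ⊆ V₀ → orb V = orb V₀ := by
    intro V hV hVV
    refine Set.eq_of_subset_of_ncard_le (hmono hVV) ?_ (hfin.subset (hmono hV₀U))
    rw [hcard]
    exact Nat.find_min' hex ⟨V, hV, hVV.trans hV₀U, rfl⟩
  -- an open symmetric neighbourhood whose square is in `V₀`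
  obtain ⟨V₁, hV₁o, hV₁1, hV₁i, hV₁⟩ : ∃ V₁ : Set (G i), IsOpen V₁ ∧ 1 ∈ V₁ ∧
      (∀ x ∈ V₁, x⁻¹ ∈ V₁) ∧ ∀ x ∈ V₁, ∀ y ∈ V₁, x * y ∈ V₀ := by
    obtain ⟨V, hVo, hV1, hV⟩ := exists_open_nhds_one_mul_subset hV₀
    refine ⟨V ∩ V⁻¹, hVo.inter hVo.inv, ⟨hV1, by simpa using hV1⟩, ?_, ?_⟩
    · rintro x ⟨h1, h2⟩
      exact ⟨h2, by simpa using h1⟩
    · rintro x ⟨h1, -⟩ y ⟨h2, -⟩
      exact hV (Set.mul_mem_mul h1 h2)
  have hV₁V₀ : V₁ ⊆ V₀ := fun x hx => by simpa using hV₁ x hx 1 hV₁1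
  have horb1 : orb V₁ = orb V₀ := hmin V₁ (hV₁o.mem_nhds hV₁1) hV₁V₀
  have hfin0 : (orb V₀).Finite := hfin.subset (hmono hV₀U)
  -- the orbit is normalised by the elements over `V₁`
  have hn1 : ∀ v : Γ, q i v ∈ V₁ → ∀ y ∈ orb V₀, v * y * v⁻¹ ∈ orb V₀ := by
    intro v hv y hy
    rw [← horb1] at hy
    obtain ⟨θ, h1, rfl⟩ := hy
    refine ⟨v * θ, ?_, by group⟩
    rw [map_mul]
    exact hV₁ _ hv _ h1
  have hn2 : ∀ v ∈ Subgroup.closure (q i ⁻¹' V₁), ∀ y ∈ orb V₀, v * y * v⁻¹ ∈ orb V₀ := by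
    intro v hv
    induction hv using Subgroup.closure_induction with
    | mem x hx => exact hn1 x hx
    | one => intro y hy; simpa using hy
    | mul x y _ _ hx hy =>
      intro z hz
      have : x * y * z * (x * y)⁻¹ = x * (y * z * y⁻¹) * x⁻¹ := by group
      rw [this]
      exact hx _ (hy _ hz)
    | inv x _ hx =>
      intro z hz
      have hinj' : Function.Injective (fun y => x * y * x⁻¹) := by
        intro a b hab
        simpa using hab
      have himg : (fun y => x * y * x⁻¹) '' orb V₀ = orb V₀ := by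
        refine Set.eq_of_subset_of_ncard_le ?_ ?_ hfin0
        · rintro _ ⟨y, hy, rfl⟩
          exact hx y hy
        · rw [Set.ncard_image_of_injective _ hinj']
      rw [← himg] at hz
      obtain ⟨y, hy, rfl⟩ := hz
      have : x⁻¹ * (x * y * x⁻¹) * x⁻¹⁻¹ = y := by group
      simp only [this]
      exact hy
  have hn : ∀ v : Γ, q i v ∈ Subgroup.closure V₁ → ∀ y ∈ orb V₀, v * y * v⁻¹ ∈ orb V₀ := fun v hv =>
    hn2 v (H971.mem_closure_of_mem (q i) hd hV₁o hV₁1 hV₁i hv)
  have hmem : h ∈ orb V₀ := ⟨1, by rw [map_one]; exact mem_of_mem_nhds hV₀, by group⟩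
  refine hinj h fun l => ?_
  by_cases hl : l = i
  · subst hl
    refine H971.eq_one_of_finite_conj hcent (q l h) (q l '' orb V₀) (hfin0.image _) V₁
      (V₁ ∩ range (q l)) (hV₁o.mem_nhds hV₁1) (hd.open_subset_closure_inter hV₁o) ?_
    rintro _ ⟨hx, γ, rfl⟩
    refine ⟨γ * h * γ⁻¹, hn1 γ hx h hmem, by rw [map_mul, map_mul, map_inv]⟩
  · have hO : IsOpen ((Subgroup.closure V₁ : Subgroup (G i)) : Set (G i)) := by
      refine Subgroup.isOpen_of_mem_nhds _ (g := 1) ?_
      exact Filter.mem_of_superset (hV₁o.mem_nhds hV₁1) Subgroup.subset_closure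
    refine finite_normalised (E := ∀ i, G i) hlat (hrec l) (Pi.evalMonoidHom G l)
      (continuous_apply l) ((Subgroup.closure V₁).comap (Pi.evalMonoidHom G i))
      (hO.preimage (continuous_apply i)) ?_ (q l '' orb V₀) (hfin0.image _) ?_ _ ⟨h, hmem, rfl⟩
    · intro g
      refine ⟨Function.update (1 : ∀ j, G j) l g, ?_, ?_⟩
      · change Function.update (1 : ∀ j, G j) l g i ∈ Subgroup.closure V₁
        rw [Function.update_of_ne (Ne.symm hl)]
        exact Subgroup.one_mem _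
      · change Function.update (1 : ∀ j, G j) l g l = g
        rw [Function.update_self]
    · rintro _ ⟨v, rfl⟩ hv _ ⟨y, hy, rfl⟩
      refine ⟨v * y * v⁻¹, hn v hv y hy, ?_⟩
      rw [map_mul, map_mul, map_inv]
      rfl

end ricc

end Vale.Agent.P092.VR.H978
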