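import Vale.Agent.P092.H971.Wn
import Vale.Agent.P092.H971.PlcAbs
import Vale.Agent.P092.H859.LatQ
import Vale.Agent.P092.VR.H978.FN

/-!
P092 (helper978), project VR, block [V-GRP]: quotients by finite normal subgroups.
-/

set_option linter.all false

open MeasureTheory Filter Topology Set

namespace Vale.Agent.P092.VR.H978

section quot

variable {I : Type} [Finite I] {A : I → Type} [∀ i, Group (A i)] {Γ : Type} [Group Γ]
  (R : ∀ i, Subgroup (A i)) [∀ i, (R i).Normal]

/-- Joint injectivity modulo finite normal subgroups. -/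
theorem inj_quo (hR : ∀ i, Finite (R i)) (q : ∀ i, Γ →* A i)
    (hinj : ∀ g, (∀ i, q i g = 1) → g = 1)
    (hicc : ∀ g : Γ, g ≠ 1 → Set.Infinite {y : Γ | ∃ h, y = h * g * h⁻¹}) :
    ∀ g, (∀ i, (QuotientGroup.mk' (R i)).comp (q i) g = 1) → g = 1 := by
  intro g hg
  by_contra hne
  have hN : {x : Γ | ∀ i, q i x ∈ R i}.Finite := by
    have hf : (Set.pi Set.univ fun i => (R i : Set (A i))).Finite :=
      Set.Finite.pi fun i => Set.toFinite _
    refine Set.Finite.of_finite_image (f := fun x i => q i x) (hf.subset ?_) ?_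
    · rintro _ ⟨x, hx, rfl⟩ i _
      exact hx i
    · intro x _ y _ hxy
      rw [← mul_inv_eq_one]
      refine hinj _ fun i => ?_
      have h1 : q i x = q i y := congrFun hxy i
      rw [map_mul, map_inv, h1, mul_inv_cancel]
  refine hicc g hne (hN.subset ?_)
  rintro y ⟨h, rfl⟩ i
  have h2 : q i g ∈ R i := (QuotientGroup.eq_one_iff _).1 (hg i)
  rw [map_mul, map_mul, map_inv]
  exact (inferInstance : (R i).Normal).conj_mem _ h2 _

variable [∀ i, TopologicalSpace (A i)]
  [∀ i, IsTopologicalGroup (A i)] [∀ i, T2Space (A i)] [∀ i, SecondCountableTopology (A i)]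
  [∀ i, LocallyCompactSpace (A i)]

/-- The lattice modulo compact normal subgroups. -/
theorem lat_quo (q : ∀ i, Γ →* A i) (hlat : H515.St.IsLattice (MonoidHom.pi q).range)
    (cA : ∀ i, IsCompact (R i : Set (A i))) :
    H515.St.IsLattice (MonoidHom.pi fun i => (QuotientGroup.mk' (R i)).comp (q i)).range := by
  have hcl : ∀ i, IsClosed (R i : Set (A i)) := fun i => (cA i).isClosed
  have := hlat.disc
  set π : (∀ i, A i) →* (∀ i, A i ⧸ R i) :=
    MonoidHom.pi fun i => (QuotientGroup.mk' (R i)).comp (Pi.evalMonoidHom A i)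
    with hπ
  have hcont : Continuous π := continuous_pi fun i =>
    continuous_quotient_mk'.comp (continuous_apply i)
  have hr : (MonoidHom.pi q).range.map π =
      (MonoidHom.pi fun i => (QuotientGroup.mk' (R i)).comp (q i)).range := by
    ext x
    constructor
    · rintro ⟨_, ⟨g, rfl⟩, rfl⟩
      exact ⟨g, rfl⟩
    · rintro ⟨g, rfl⟩
      exact ⟨_, ⟨g, rfl⟩, rfl⟩
  rw [← hr]
  refine H793.lattice_map π hcont ?_ hlat (H793.discrete_map π (fun C hC => ?_) _)
  · intro x
    choose y hy using fun i => QuotientGroup.mk_surjective (x i)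
    exact ⟨y, funext hy⟩
  · refine (isCompact_univ_pi fun i => H793.proper_mk _ (cA i) _
      (hC.image (continuous_apply i))).of_isClosed_subset (hC.isClosed.preimage hcont) ?_
    intro x hx i _
    exact ⟨_, hx, rfl⟩

end quot

theorem comm_aux {Q : Type} [Group Q] {x a b : Q} (h1 : x * a = a * x)
    (h2 : x * (b⁻¹ * a * b) = b⁻¹ * a * b * x) :
    a * (x * b * x⁻¹ * b⁻¹) = x * b * x⁻¹ * b⁻¹ * a := by
  have h3 : b * x * b⁻¹ * a = a * (b * x * b⁻¹) := by
    calc b * x * b⁻¹ * a = b * (x * (b⁻¹ * a * b)) * b⁻¹ := by group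
      _ = b * (b⁻¹ * a * b * x) * b⁻¹ := by rw [h2]
      _ = _ := by group
  have h4 : Commute a x := h1.symm
  have h5 : Commute a (b * x * b⁻¹) := h3.symm
  have h6 : Commute a (x * (b * x * b⁻¹)⁻¹) := h4.mul_right h5.inv_right
  have e : x * b * x⁻¹ * b⁻¹ = x * (b * x * b⁻¹)⁻¹ := by group
  rw [e]
  exact h6

section cent

variable {M E : Type} [Group M] [TopologicalSpace M] [IsTopologicalGroup M] [Group E]
  [TopologicalSpace E] [IsTopologicalGroup E] {φ : M →* E}

/-- Centralisers in the quotient by the radical are not open. -/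
theorem not_open_cent (hφ : Continuous φ) (hn : φ.range.Normal) (R : Subgroup E) [R.Normal]
    (hc : R.comap φ = Subgroup.center M)
    (hcent : ∀ g : E, (∀ n ∈ φ.range, g * n * g⁻¹ * n⁻¹ ∈ R) → g ∈ R)
    (hM : ∀ g : M ⧸ Subgroup.center M, g ≠ 1 →
      ¬ IsOpen ((Subgroup.centralizer {g} : Subgroup (M ⧸ Subgroup.center M)) :
        Set (M ⧸ Subgroup.center M)))
    (g : E ⧸ R) (hg : g ≠ 1) :
    ¬ IsOpen ((Subgroup.centralizer {g} : Subgroup (E ⧸ R)) : Set (E ⧸ R)) := by
  intro ho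
  obtain ⟨x, rfl⟩ := QuotientGroup.mk_surjective g
  apply hg
  refine (QuotientGroup.eq_one_iff x).2 (hcent x ?_)
  rintro _ ⟨m, rfl⟩
  obtain ⟨m', hm'⟩ : x * φ m * x⁻¹ * (φ m)⁻¹ ∈ φ.range :=
    φ.range.mul_mem (hn.conj_mem _ ⟨m, rfl⟩ x) (φ.range.inv_mem ⟨m, rfl⟩)
  rw [← hm']
  -- the elements of `M` which commute with `x` and its conjugate by `φ m`, modulo `R`
  let ψ : M →* E ⧸ R := (QuotientGroup.mk' R).comp φ
  have hψ : Continuous ψ := continuous_quotient_mk'.comp hφ
  let U : Subgroup M := (Subgroup.centralizer {(x : E ⧸ R)}).comap ψ ⊓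
    ((Subgroup.centralizer {(x : E ⧸ R)}).comap ψ).comap (MulAut.conj m⁻¹ : M ≃* M).toMonoidHom
  have hUo : IsOpen (U : Set M) := by
    have h1 : IsOpen (((Subgroup.centralizer {(x : E ⧸ R)}).comap ψ : Subgroup M) : Set M) :=
      ho.preimage hψ
    have h2 : Continuous fun z : M => m⁻¹ * z * m⁻¹⁻¹ := by fun_prop
    exact h1.inter (h1.preimage h2)
  by_contra hne
  have hne' : (m' : M ⧸ Subgroup.center M) ≠ 1 := by
    intro h
    apply hne
    have h4 : m' ∈ Subgroup.center M := (QuotientGroup.eq_one_iff m').1 h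
    rw [← hc] at h4
    exact h4
  refine hM _ hne' (Subgroup.isOpen_mono (H₁ := U.map (QuotientGroup.mk' (Subgroup.center M))) ?_
    (QuotientGroup.isOpenMap_coe _ hUo))
  rintro _ ⟨z, ⟨hz1, hz2⟩, rfl⟩
  rw [Subgroup.mem_centralizer_singleton_iff]
  have k1 : (x : E ⧸ R) * ψ z = ψ z * x := by
    have h5 := Subgroup.mem_centralizer_singleton_iff.1 hz1
    exact h5.symm
  have k2 : (x : E ⧸ R) * ψ (m⁻¹ * z * m⁻¹⁻¹) = ψ (m⁻¹ * z * m⁻¹⁻¹) * x := by
    have h5 := Subgroup.mem_centralizer_singleton_iff.1 hz2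
    exact h5.symm
  have k3 : ψ m' = x * ψ m * (x : E ⧸ R)⁻¹ * (ψ m)⁻¹ := congrArg (fun y : E => (y : E ⧸ R)) hm'
  have k4 : ψ z * ψ m' = ψ m' * ψ z := by
    rw [k3]
    rw [map_mul, map_mul, inv_inv, map_inv] at k2
    exact comm_aux k1 k2
  have k8 : ψ (z * m' * z⁻¹ * m'⁻¹) = 1 := by
    simp only [map_mul, map_inv]
    rw [k4]
    group
  have k9 : z * m' * z⁻¹ * m'⁻¹ ∈ Subgroup.center M := by
    rw [← hc]
    exact (QuotientGroup.eq_one_iff (φ (z * m' * z⁻¹ * m'⁻¹))).1 k8
  have k10 : (QuotientGroup.mk' (Subgroup.center M)) (z * m' * z⁻¹ * m'⁻¹) = 1 :=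
    (QuotientGroup.eq_one_iff _).2 k9
  simp only [map_mul, map_inv] at k10
  rw [mul_inv_eq_one, mul_inv_eq_iff_eq_mul] at k10
  exact k10

/-- The quotient by the radical is not trivial. -/
theorem exists_ne (R : Subgroup E) (hc : R.comap φ = Subgroup.center M)
    (hM : ¬ CompactSpace (M ⧸ Subgroup.center M)) : R ≠ ⊤ := by
  intro h
  apply hM
  rw [h, Subgroup.comap_top] at hc
  refine ⟨?_⟩
  have e : (univ : Set (M ⧸ Subgroup.center M)) = {1} := by
    ext y
    simp only [mem_univ, mem_singleton_iff, true_iff]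
    obtain ⟨y, rfl⟩ := QuotientGroup.mk_surjective y
    refine (QuotientGroup.eq_one_iff _).2 ?_
    rw [← hc]
    exact Subgroup.mem_top _
  rw [e]
  exact isCompact_singleton

end cent

end Vale.Agent.P092.VR.H978
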