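import Vale.Agent.P092.VR.Ov
import Vale.Agent.P092.VR.TopV
import Vale.Agent.P092.VR.H978.GrpA
import Vale.Agent.P092.QT.NE.NeC

/-!
P092 (helper978), project VR, block [V-GRP]: the data `GrpV` and the relative ICC property for
families of overgroups of finite index of factors.
-/

set_option linter.all false

open MeasureTheory Filter Topology Set

namespace Vale.Agent.P092.VR.H978

open Vale.Agent.P092.VR (FacV Ov IsRad GrpV)
open Vale.Agent.P092.SR.St (ICC)

/-- The places are not compact. -/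
theorem not_compact {M E : Type} [Group M] [TopologicalSpace M] [Group E] [TopologicalSpace E]
    {φ : M →* E} {r : ℕ} (h : Ov φ r) (R : Subgroup E) [R.Normal] (hR : IsRad φ R)
    (hfac : FacV (E ⧸ R)) : ¬ CompactSpace (E ⧸ R) := by
  intro hc
  haveI := h.qf.top
  haveI := h.top
  have h1 := exists_ne R hR.comap h.qf.fac.nc
  have h2 : (⊤ : Subgroup (E ⧸ R)) ≠ ⊥ := by
    intro h3
    apply h1
    rw [eq_top_iff]
    intro x _
    have h4 : (x : E ⧸ R) ∈ (⊤ : Subgroup (E ⧸ R)) := Subgroup.mem_top _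
    rw [h3, Subgroup.mem_bot] at h4
    exact (QuotientGroup.eq_one_iff x).1 h4
  exact (hfac.big ⊤ inferInstance h2).2 isCompact_univ

/-- Centralisers in the places are not open. -/
theorem not_open {M E : Type} [Group M] [TopologicalSpace M] [Group E] [TopologicalSpace E]
    [IsTopologicalGroup E] {φ : M →* E} {r : ℕ} (h : Ov φ r) (R : Subgroup E) [R.Normal]
    (hR : IsRad φ R) (g : E ⧸ R) (hg : g ≠ 1) :
    ¬ IsOpen ((Subgroup.centralizer {g} : Subgroup (E ⧸ R)) : Set (E ⧸ R)) := by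
  haveI := h.qf.top
  exact not_open_cent h.cont h.normal R hR.comap hR.cent h.qf.fac.cent g hg

section fam

variable {Γ I : Type} [Group Γ] [Fintype I] {M E : I → Type} [∀ i, Group (M i)]
  [∀ i, TopologicalSpace (M i)] [∀ i, Group (E i)] [∀ i, TopologicalSpace (E i)]
  [∀ i, IsTopologicalGroup (E i)] [∀ i, LocallyCompactSpace (E i)]
  [∀ i, SecondCountableTopology (E i)] [∀ i, T2Space (E i)] {φ : ∀ i, M i →* E i} {r : I → ℕ}

/-- **[V-GRP]** for a family of homomorphisms. -/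
theorem grpV_fam (h : ∀ i, Ov (φ i) (r i)) (R : ∀ i, Subgroup (E i)) [∀ i, (R i).Normal]
    (hR : ∀ i, IsRad (φ i) (R i)) (hfac : ∀ i, FacV (E i ⧸ R i))
    [∀ i, MeasurableSpace (E i ⧸ R i)] [∀ i, BorelSpace (E i ⧸ R i)] (q : ∀ i, Γ →* E i)
    (hinj : ∀ g, (∀ i, q i g = 1) → g = 1) (hlat : H515.St.IsLattice (MonoidHom.pi q).range)
    (hd : ∀ i, DenseRange (q i)) (hicc : ICC Γ) :
    ∃ m, GrpV (fun i => (QuotientGroup.mk' (R i)).comp (q i)) m := by
  have hf : ∀ i, Finite (R i) := fun i => (hR i).fin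
  have cA : ∀ i, IsCompact (R i : Set (E i)) := fun i => (Set.toFinite (R i : Set (E i))).isCompact
  have hcl : ∀ i, IsClosed (R i : Set (E i)) := fun i => (cA i).isClosed
  have hL := lat_quo R q hlat cA
  have hi := inj_quo R hf q hinj hicc
  obtain ⟨m, hm⟩ := H859.exists_lat (MonoidHom.pi fun i => (QuotientGroup.mk' (R i)).comp (q i)) (by
    rw [injective_iff_map_eq_one]
    intro g hg
    exact hi g fun i => congrFun hg i) ⟨hL.disc, hL.covol⟩
  refine ⟨m, hm, hfac, fun i => ?_, fun i l hil => ?_, hi⟩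
  · exact (QuotientGroup.mk'_surjective _).denseRange.comp (hd i) continuous_quotient_mk'
  · obtain ⟨w, h1, h2⟩ := H971.exists_esc (fun i => (QuotientGroup.mk' (R i)).comp (q i)) hL l
      (not_compact (h l) (R l) (hR l) (hfac l))
    exact ⟨w, h1 i hil, h2⟩

/-- Relative ICC modulo the radicals. -/
theorem ricc_quo (h : ∀ i, Ov (φ i) (r i)) (R : ∀ i, Subgroup (E i)) [∀ i, (R i).Normal]
    (hR : ∀ i, IsRad (φ i) (R i)) (hfac : ∀ i, FacV (E i ⧸ R i)) (q : ∀ i, Γ →* E i)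
    (hinj : ∀ g, (∀ i, q i g = 1) → g = 1) (hlat : H515.St.IsLattice (MonoidHom.pi q).range)
    (hicc : ICC Γ) (i : I) (hd : DenseRange (q i)) {g : Γ} (hg : g ≠ 1) :
    ∀ U ∈ 𝓝 (1 : E i ⧸ R i), {y : Γ | ∃ θ : Γ, (QuotientGroup.mk' (R i)).comp (q i) θ ∈ U ∧
      y = θ * g * θ⁻¹}.Infinite := by
  intro U hU
  have hf : ∀ i, Finite (R i) := fun i => (hR i).fin
  have cA : ∀ i, IsCompact (R i : Set (E i)) := fun i => (Set.toFinite (R i : Set (E i))).isCompact
  have hcl : ∀ i, IsClosed (R i : Set (E i)) := fun i => (cA i).isClosed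
  have hL := lat_quo R q hlat cA
  exact ricc (fun i => (QuotientGroup.mk' (R i)).comp (q i)) (inj_quo R hf q hinj hicc)
    ⟨hL.disc, hL.covol⟩ (fun l => (hfac l).null) i (not_open (h i) (R i) (hR i))
    ((QuotientGroup.mk'_surjective _).denseRange.comp hd continuous_quotient_mk') hU hg

/-- Relative ICC, open subgroups of the quotient by the radical. -/
theorem ricc_quo_open (h : ∀ i, Ov (φ i) (r i)) (R : ∀ i, Subgroup (E i)) [∀ i, (R i).Normal]
    (hR : ∀ i, IsRad (φ i) (R i)) (hfac : ∀ i, FacV (E i ⧸ R i)) (q : ∀ i, Γ →* E i)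
    (hinj : ∀ g, (∀ i, q i g = 1) → g = 1) (hlat : H515.St.IsLattice (MonoidHom.pi q).range)
    (hicc : ICC Γ) (i : I) (hd : DenseRange (q i)) (U : Subgroup (E i ⧸ R i))
    (hU : IsOpen (U : Set (E i ⧸ R i))) {g : Γ} (hg : g ≠ 1) :
    {x : Γ | ∃ θ ∈ U.comap ((QuotientGroup.mk' (R i)).comp (q i)), x = θ * g * θ⁻¹}.Infinite :=
  ricc_quo h R hR hfac q hinj hlat hicc i hd hg U (hU.mem_nhds U.one_mem)

/-- **Relative ICC**, open subgroups. -/
theorem ricc_fam (h : ∀ i, Ov (φ i) (r i)) (R : ∀ i, Subgroup (E i)) [∀ i, (R i).Normal]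
    (hR : ∀ i, IsRad (φ i) (R i)) (hfac : ∀ i, FacV (E i ⧸ R i)) (q : ∀ i, Γ →* E i)
    (hinj : ∀ g, (∀ i, q i g = 1) → g = 1) (hlat : H515.St.IsLattice (MonoidHom.pi q).range)
    (hicc : ICC Γ) (i : I) (hd : DenseRange (q i)) (U : Subgroup (E i))
    (hU : IsOpen (U : Set (E i))) {g : Γ} (hg : g ≠ 1) :
    {x : Γ | ∃ θ ∈ U.comap (q i), x = θ * g * θ⁻¹}.Infinite := by
  haveI : Finite (R i) := (hR i).fin
  refine H971.infinite_lift (q i) (QuotientGroup.mk' (R i)) (QuotientGroup.isOpenMap_coe) ?_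
    (ricc_quo h R hR hfac q hinj hlat hicc i hd hg) U hU
  rw [QuotientGroup.ker_mk']
  exact Set.toFinite _

end fam

section sub

open Vale.Agent.P092.QT.NE (ev)

variable {I : Type} [Fintype I] {M E : I → Type} [∀ i, Group (M i)]
  [∀ i, TopologicalSpace (M i)] [∀ i, Group (E i)] [∀ i, TopologicalSpace (E i)]
  [∀ i, IsTopologicalGroup (E i)] [∀ i, LocallyCompactSpace (E i)]
  [∀ i, SecondCountableTopology (E i)] [∀ i, T2Space (E i)] {φ : ∀ i, M i →* E i} {r : I → ℕ}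

theorem pi_ev (Γ : Subgroup (∀ i, E i)) : (MonoidHom.pi (ev Γ)).range = Γ := by
  ext x
  constructor
  · rintro ⟨g, rfl⟩
    exact g.2
  · intro hx
    exact ⟨⟨x, hx⟩, rfl⟩

/-- **[V-GRP]** -/
theorem grpV (h : ∀ i, Ov (φ i) (r i)) (R : ∀ i, Subgroup (E i)) [∀ i, (R i).Normal]
    (hR : ∀ i, IsRad (φ i) (R i)) (hfac : ∀ i, FacV (E i ⧸ R i))
    [∀ i, MeasurableSpace (E i ⧸ R i)] [∀ i, BorelSpace (E i ⧸ R i)] (Γ : Subgroup (∀ i, E i))
    (hlat : H515.St.IsLattice Γ) (hd : ∀ i, DenseRange (ev Γ i)) (hicc : ICC Γ) :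
    ∃ m, GrpV (fun i => (QuotientGroup.mk' (R i)).comp (ev Γ i)) m :=
  grpV_fam h R hR hfac (ev Γ) (fun g hg => Subtype.ext (funext hg))
    (by rw [pi_ev]; exact hlat) hd hicc

/-- **Relative ICC of an overgroup.** -/
theorem ricc_over (h : ∀ i, Ov (φ i) (r i)) (R : ∀ i, Subgroup (E i)) [∀ i, (R i).Normal]
    (hR : ∀ i, IsRad (φ i) (R i)) (hfac : ∀ i, FacV (E i ⧸ R i)) (Γ : Subgroup (∀ i, E i))
    (hlat : H515.St.IsLattice Γ) (hd : ∀ i, DenseRange (ev Γ i)) (hicc : ICC Γ) (i : I)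
    (U : Subgroup (E i)) (hU : IsOpen (U : Set (E i))) (g : Γ) (hg : g ≠ 1) :
    {x : Γ | ∃ θ ∈ U.comap (ev Γ i), x = θ * g * θ⁻¹}.Infinite :=
  ricc_fam h R hR hfac (ev Γ) (fun g hg => Subtype.ext (funext hg))
    (by rw [pi_ev]; exact hlat) hicc i (hd i) U hU hg

end sub

end Vale.Agent.P092.VR.H978
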